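import Vale.Agent.P281.H498.KD.TK

/-! P281, theorem KGL: from quotients of tensors on `X` to quotients of sections on `Y`. -/

open scoped Manifold ContDiff Topology ComplexOrder
open Set Filter Vale.Agent.P272.K

noncomputable section

namespace Vale.Agent.P281.H498

open Vale.Agent.P281 Vale.Agent.P281.MF Vale.Agent.P281.ISO Vale.Agent.P281.H713.SA
open Vale.Agent.P281.H716 Vale.Agent.P299.D Vale.Agent.P281.H787 Vale.Agent.P281.H713.KD
open Vale.Agent.P299.H882 (xi)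

set_option linter.unusedSectionVars false

section Wirt

variable {n : ℕ} {z : Cm n}

theorem xi_logH {X : Type} [TopologicalSpace X] {u : X → ℝ} {e : Chart n X} {H : Cm n → ℂ}
    {l : ℝ} (hH : AnalyticAt ℂ H z) (h0 : H z ≠ 0)
    (hu : ∀ᶠ y in 𝓝 z, u (e.symm y) = l * Real.log (‖H y‖ ^ 2)) (k : Fin n) :
    xi u e z k = (l : ℂ) * (H z)⁻¹ * fderiv ℂ H z (Pi.single k 1) := by
  have hgd : DifferentiableAt ℂ H z := hH.differentiableAt
  have hn : DifferentiableAt ℝ (fun y => ‖H y‖ ^ 2) z := (hgd.restrictScalars ℝ).norm_sq ℝ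
  have hn0 : ‖H z‖ ^ 2 ≠ 0 := pow_ne_zero _ (norm_ne_zero_iff.2 h0)
  have h1 : (fun y => ((u (e.symm y) : ℝ) : ℂ)) =ᶠ[𝓝 z] fun y =>
      ((l * Real.log (‖H y‖ ^ 2) : ℝ) : ℂ) := by
    filter_upwards [hu] with y h2
    rw [h2]
  have h2 : HasDerivAt (fun t => l * Real.log t) (l * (‖H z‖ ^ 2)⁻¹) (‖H z‖ ^ 2) :=
    (Real.hasDerivAt_log hn0).const_mul l
  show dz k (fun y => ((u (e.symm y) : ℝ) : ℂ)) z = _
  rw [C2.dz_congr k h1, C2.dz_comp_real (ψ := fun t => l * Real.log t)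
    (u := fun y => ‖H y‖ ^ 2) k h2 hn, dz_normSq hgd]
  have h4 : (starRingEnd ℂ) (H z) ≠ 0 := by simpa using h0
  have h5 : (((‖H z‖ ^ 2)⁻¹ : ℝ) : ℂ) = (H z)⁻¹ * ((starRingEnd ℂ) (H z))⁻¹ := by
    rw [← mul_inv, Complex.mul_conj, Complex.normSq_eq_norm_sq, Complex.ofReal_inv]
  rw [Complex.ofReal_mul, h5]
  field_simp

theorem xi_logH_sum {X : Type} [TopologicalSpace X] {u : X → ℝ} {e : Chart n X} {H : Cm n → ℂ}
    {l : ℝ} (hH : AnalyticAt ℂ H z) (h0 : H z ≠ 0)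
    (hu : ∀ᶠ y in 𝓝 z, u (e.symm y) = l * Real.log (‖H y‖ ^ 2)) (v : Cm n) :
    ∑ k, xi u e z k * v k = (l : ℂ) * (H z)⁻¹ * fderiv ℂ H z v := by
  rw [clm_sum (fderiv ℂ H z) v, Finset.mul_sum]
  refine Finset.sum_congr rfl fun k _ => ?_
  rw [xi_logH hH h0 hu k]
  ring

end Wirt

section Sec

variable {p : ℕ} {Y : Type} [TopologicalSpace Y] [ChartedSpace (Cm p) Y]
  [IsManifold 𝓘(ℂ, Cm p) ω Y]

/-- combinations of sections -/
theorem sec_comb {m : ℕ} {k : Set Y → ℕ} {σ₀ σ₁ : Y → ℂ}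
    (h₀ : IsSection (Cm p) (fun (D : Set Y) z g => IsLocalEq (Cm p) D g z) m k σ₀)
    (h₁ : IsSection (Cm p) (fun (D : Set Y) z g => IsLocalEq (Cm p) D g z) m k σ₁)
    (c : ℂ) (q : ℕ) :
    IsSection (Cm p) (fun (D : Set Y) z g => IsLocalEq (Cm p) D g z) ((q + 1) * m)
      (fun G => (q + 1) * k G) (fun y => σ₀ y ^ q * (σ₁ y + c * σ₀ y)) := by
  classical
  intro y
  obtain ⟨T, g, a, hT, hg, ha, hev⟩ := h₀ y
  obtain ⟨T', g', a', hT', hg', ha', hev'⟩ := h₁ y
  have hu : ∀ G, ∃ u : Y → ℂ, HolV (Cm p) u y ∧ u y ≠ 0 ∧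
      (k G ≠ 0 → ∀ᶠ z in 𝓝 y, g' G z = g G z * u z) := by
    intro G
    by_cases hk : k G = 0
    · exact ⟨fun _ => 1, HolV.const 1 y, one_ne_zero, fun h => absurd hk h⟩
    · obtain ⟨u, h1, h2, h3⟩ := leq_unit (hg G (hT G hk)) (hg' G (hT' G hk))
      exact ⟨u, h1, h2, fun _ => h3⟩
  choose u hu hu0 hue using hu
  have hU : HolV (Cm p) (fun z => ∏ i ∈ T ∪ T', u i z ^ k i) y :=
    HolV.prod fun i _ => (hu i).pow _
  have hU0 : ∏ i ∈ T ∪ T', u i y ^ k i ≠ 0 :=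
    Finset.prod_ne_zero_iff.2 fun i _ => pow_ne_zero _ (hu0 i)
  have hprod : ∀ᶠ z in 𝓝 y, ∏ i ∈ T', g' i z ^ k i =
      (∏ i ∈ T, g i z ^ k i) * ∏ i ∈ T ∪ T', u i z ^ k i := by
    have h1 : ∀ᶠ z in 𝓝 y, ∀ i ∈ T ∪ T', k i ≠ 0 → g' i z = g i z * u i z := by
      rw [Filter.eventually_all_finset]
      intro i _
      by_cases hk : k i = 0
      · exact Eventually.of_forall fun z h => absurd hk h
      · filter_upwards [hue i hk] with z hz _ using hz
    filter_upwards [h1] with z hz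
    have h2 : ∏ i ∈ T', g' i z ^ k i = ∏ i ∈ T ∪ T', g' i z ^ k i := by
      refine Finset.prod_subset Finset.subset_union_right fun i _ hi => ?_
      have : k i = 0 := by
        by_contra hk
        exact hi (hT' i hk)
      rw [this, pow_zero]
    have h3 : ∏ i ∈ T, g i z ^ k i = ∏ i ∈ T ∪ T', g i z ^ k i := by
      refine Finset.prod_subset Finset.subset_union_left fun i _ hi => ?_
      have : k i = 0 := by
        by_contra hk
        exact hi (hT i hk)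
      rw [this, pow_zero]
    rw [h2, h3, ← Finset.prod_mul_distrib]
    refine Finset.prod_congr rfl fun i hi => ?_
    by_cases hk : k i = 0
    · rw [hk, pow_zero, pow_zero, pow_zero, mul_one]
    · rw [hz i hi hk, mul_pow]
  refine ⟨T, g, fun z => a z ^ q * (a' z / (∏ i ∈ T ∪ T', u i z ^ k i) + c * a z),
    fun i hi => hT i (right_ne_zero_of_mul hi), hg,
    (HolV.pow ha q).mul ((HolV.div ha' hU hU0).add ((HolV.const c y).mul ha)), ?_⟩
  filter_upwards [hev, hev', hprod, hU.continuousAt.eventually_ne hU0] with z h1 h2 h3 h4 h5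
  have h6 : ∏ i ∈ T, g i z ^ ((q + 1) * k i) = (∏ i ∈ T, g i z ^ k i) ^ (q + 1) := by
    rw [← Finset.prod_pow]
    exact Finset.prod_congr rfl fun i _ => by rw [mul_comm, pow_mul]
  rw [h6] at h5 ⊢
  have h7 : ∏ i ∈ T, g i z ^ k i ≠ 0 := fun h0 => h5 (by rw [h0, zero_pow (Nat.succ_ne_zero q)])
  have h8 := h1 h7
  rw [h3] at h2
  have h9 := h2 (mul_ne_zero h7 h4)
  set P := ∏ i ∈ T, g i z ^ k i with hP
  set U := ∏ i ∈ T ∪ T', u i z ^ k i with hUd
  set J := jac (Cm p) (chartAt (Cm p) y) z with hJ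
  have h10 : σ₁ z * P = a' z / U * J ^ m := by
    field_simp
    rw [← h9]
    ring
  calc σ₀ z ^ q * (σ₁ z + c * σ₀ z) * P ^ (q + 1)
      = (σ₀ z * P) ^ q * (σ₁ z * P + c * (σ₀ z * P)) := by ring
    _ = (a z * J ^ m) ^ q * (a' z / U * J ^ m + c * (a z * J ^ m)) := by rw [h8, h10]
    _ = a z ^ q * (a' z / U + c * a z) * J ^ ((q + 1) * m) := by
      ring

/-- the quotient of two sections is holomorphic at the points off the divisors -/
theorem holV_quotient {m : ℕ} {k : Set Y → ℕ} {σ₀ σ₁ : Y → ℂ} {y : Y}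
    (h₀ : IsSection (Cm p) (fun (D : Set Y) z g => IsLocalEq (Cm p) D g z) m k σ₀)
    (h₁ : IsSection (Cm p) (fun (D : Set Y) z g => IsLocalEq (Cm p) D g z) m k σ₁)
    (hy : ∀ D, k D ≠ 0 → ∃ g, IsLocalEq (Cm p) D g y ∧ g y ≠ 0) (h0 : σ₀ y ≠ 0) :
    HolV (Cm p) (fun y => σ₁ y / σ₀ y) y ∧ ∀ᶠ z in 𝓝 y, σ₀ z ≠ 0 := by
  obtain ⟨A₀, hA₀, he₀⟩ := section_local h₀ hy
  obtain ⟨A₁, hA₁, he₁⟩ := section_local h₁ hy
  have hs : y ∈ (chartAt (Cm p) y).source := mem_chart_source _ _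
  have hjac : ∀ᶠ z in 𝓝 y, jac (Cm p) (chartAt (Cm p) y) z ≠ 0 := by
    filter_upwards [(chartAt (Cm p) y).open_source.mem_nhds hs] with z hz
    exact jac_chart_ne_zero hz
  have hA0 : A₀ y ≠ 0 := by
    intro h
    apply h0
    rw [he₀.self_of_nhds, h, zero_mul]
  constructor
  · refine HolV.congr (HolV.div hA₁ hA₀ hA0) ?_
    filter_upwards [he₀, he₁, hjac] with z h1 h2 h3
    rw [h1, h2, mul_div_mul_right _ _ (pow_ne_zero m h3)]
  · filter_upwards [he₀, hjac, hA₀.continuousAt.eventually_ne hA0] with z h1 h2 h3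
    rw [h1]
    exact mul_ne_zero h3 (pow_ne_zero m h2)

end Sec

section Chart

variable {n : ℕ} {X : Type} [TopologicalSpace X] [ChartedSpace (Cm n) X]
  [IsManifold 𝓘(ℂ, Cm n) ω X]

/-- the differential in the preferred chart -/
theorem dif_eq_fderiv (g : X → ℂ) (x : X) : dif (Cm n) g x =
    fderiv ℂ (fun y => g ((chartAt (Cm n) x).symm y)) (chartAt (Cm n) x x) := by
  have hw : writtenInExtChartAt 𝓘(ℂ, Cm n) 𝓘(ℂ, ℂ) x g =
      fun y => g ((chartAt (Cm n) x).symm y) := by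
    funext y
    simp only [mfld_simps]
    rfl
  by_cases h : MDifferentiableAt 𝓘(ℂ, Cm n) 𝓘(ℂ, ℂ) g x
  · unfold dif
    rw [h.mfderiv, hw]
    simp only [mfld_simps, fderivWithin_univ]
  · unfold dif
    rw [mfderiv_zero_of_not_mdifferentiableAt h]
    have h1 : ¬ DifferentiableAt ℂ (fun y => g ((chartAt (Cm n) x).symm y))
        (chartAt (Cm n) x x) := by
      intro h2
      apply h
      rw [mdifferentiableAt_iff]
      refine ⟨?_, ?_⟩
      · have h3 : ContinuousAt (fun w => g ((chartAt (Cm n) x).symm (chartAt (Cm n) x w))) x :=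
          ContinuousAt.comp (f := (chartAt (Cm n) x : X → Cm n)) h2.continuousAt
            ((chartAt (Cm n) x).continuousAt (mem_chart_source _ _))
        refine h3.congr ?_
        filter_upwards [(chartAt (Cm n) x).open_source.mem_nhds (mem_chart_source _ _)] with w hw
        rw [(chartAt (Cm n) x).left_inv hw]
      · rw [hw]
        simpa only [mfld_simps, differentiableWithinAt_univ] using h2
    rw [fderiv_zero_of_not_differentiableAt h1]
    rfl

/-- the differential of the preferred chart is the identity -/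
theorem dV_chartAt (x : X) : dV (Cm n) (chartAt (Cm n) x : X → Cm n) x =
    ContinuousLinearMap.id ℂ (Cm n) := by
  have h : MDifferentiableAt 𝓘(ℂ, Cm n) 𝓘(ℂ, Cm n) (chartAt (Cm n) x : X → Cm n) x :=
    (HolV.chart (mem_chart_source _ _)).mdiff
  unfold dV
  rw [h.mfderiv]
  have h1 : writtenInExtChartAt 𝓘(ℂ, Cm n) 𝓘(ℂ, Cm n) x (chartAt (Cm n) x : X → Cm n) =ᶠ[
      𝓝 (chartAt (Cm n) x x)] id := by
    filter_upwards [(chartAt (Cm n) x).open_target.mem_nhds
      ((chartAt (Cm n) x).map_source (mem_chart_source _ _))] with y hy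
    simp only [mfld_simps]
    exact (chartAt (Cm n) x).right_inv hy
  simp only [mfld_simps, fderivWithin_univ] at h1 ⊢
  rw [h1.fderiv_eq, fderiv_id]

end Chart

end Vale.Agent.P281.H498
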