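import Vale.Agent.P281.H498.KL.BrB
import Vale.Agent.P281.H716.KL.Bridge

/-! P281, theorem KGL: the bridge. -/

open scoped Manifold ContDiff Topology ComplexOrder

namespace Vale.Agent.P281.H498

open Vale.Agent.P281.H716.KL

/-- **Bridge** of theorem KGL. -/
theorem bridgeL : BridgeL := by
  intro n p M X Z Y _ _ _ _ _ _ _ _ _ _ _ _ _ _ χ hχ j hj f hf 𝒢 h𝒢 Δ hsnc Δ' hsnc' hres Dv
    hinj hDv r R hR m₀ hm₀ N P R' hcore
  intro m k K hm _ hk hkG σ₀ σ₁ hσ₀ hσ₁ z hzR hzΔ hzS hsurj h0 a₀ ha₀ v hv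
  exact bridge_core hχ hj hf h𝒢 hsnc hsnc' hres hinj hDv hR hm₀ hcore hm hk hkG hσ₀ hσ₁ hzR hzΔ
    hzS hsurj h0 ha₀ hv

end Vale.Agent.P281.H498
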