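import Vale.Agent.P281.H498.KL.BrA

/-! P281, theorem KGL: from quotients of tensors on `X` to quotients of sections on `Y`. -/

open scoped Manifold ContDiff Topology ComplexOrder
open Set Filter Vale.Agent.P272.K

noncomputable section

namespace Vale.Agent.P281.H498

open Vale.Agent.P281 Vale.Agent.P281.MF Vale.Agent.P281.ISO Vale.Agent.P281.H713.SA
open Vale.Agent.P281.H716 Vale.Agent.P299.D Vale.Agent.P281.H787 Vale.Agent.P281.H713.KD
open Vale.Agent.P299.H882 (xi)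

set_option linter.unusedSectionVars false

section

variable {n p M : ℕ} {X Z Y : Type} [TopologicalSpace X]
  [ChartedSpace (Cm n) X] [IsManifold 𝓘(ℂ, Cm n) ω X]
  [TopologicalSpace Z] [ChartedSpace (Cm n) Z] [IsManifold 𝓘(ℂ, Cm n) ω Z]
  [TopologicalSpace Y] [ChartedSpace (Cm p) Y] [IsManifold 𝓘(ℂ, Cm p) ω Y]
  {j : Z → X} {f : Z → Y} {S : Set Y} {Dv : Fin M → Set X}

/-- `Am` and `dM f` have the same rank -/
theorem surj_Am (hs : Setup n p j f S Dv) {e : Chart n X} {z w : Z} (h : At e (j w))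
    (hw : f w ∈ (chartAt (Cm p) (f z)).source) : Function.Surjective (Am n p j f e z w) ↔
      Function.Surjective (dM (Cm n) (Cm p) f w) := by
  have hc : At (chartAt (Cm p) (f z) : Chart p Y) (f w) := ⟨chart_mem_atlas _ _, hw⟩
  have hu := isUnit_ej hs.hj hs.inj h
  have h1 : dV (Cm n) (fun w => (chartAt (Cm p) (f z) : Y → Cm p) (f w)) w =
      (dV (Cm p) (chartAt (Cm p) (f z) : Y → Cm p) (f w)).comp (dM (Cm n) (Cm p) f w) :=
    dV_comp (HolV.chart hw) (hs.hf w)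
  set L := dV (Cm p) (chartAt (Cm p) (f z) : Y → Cm p) (f w) with hL
  have hLu : IsUnit L := isUnit_at hc
  have hLinv : ∀ y, Ring.inverse L (L y) = y := by
    intro y
    have := congrArg (fun T : Cm p →L[ℂ] Cm p => T y) (Ring.inverse_mul_cancel _ hLu)
    exact this
  have hLinv' : ∀ y, L (Ring.inverse L y) = y := by
    intro y
    have := congrArg (fun T : Cm p →L[ℂ] Cm p => T y) (Ring.mul_inverse_cancel _ hLu)
    exact this
  have h2 : ∀ x, Am n p j f e z w x = L (dM (Cm n) (Cm p) f w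
      (Ring.inverse (dV (Cm n) (fun w => e (j w)) w) x)) := by
    intro x
    unfold Am
    rw [h1]
    rfl
  constructor
  · intro hA y
    obtain ⟨x, hx⟩ := hA (L y)
    refine ⟨Ring.inverse (dV (Cm n) (fun w => e (j w)) w) x, ?_⟩
    rw [h2] at hx
    have h3 := congrArg (fun t : Cm p => (Ring.inverse L) t) hx
    simp only [hLinv] at h3
    exact h3
  · intro hA y
    obtain ⟨v, hv⟩ := hA (Ring.inverse L y)
    refine ⟨dV (Cm n) (fun w => e (j w)) w v, ?_⟩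
    have h5 : Ring.inverse (dV (Cm n) (fun w => e (j w)) w)
        (dV (Cm n) (fun w => e (j w)) w v) = v := by
      have := congrArg (fun T : Cm n →L[ℂ] Cm n => T v) (Ring.inverse_mul_cancel _ hu)
      exact this
    rw [h2, h5]
    have h6 : dM (Cm n) (Cm p) f w v = Ring.inverse L y := hv
    rw [h6, hLinv']

/-- submersivity is open -/
theorem surj_open (hs : Setup n p j f S Dv) {z : Z}
    (hsurj : Function.Surjective (dM (Cm n) (Cm p) f z)) :
    ∀ᶠ w in 𝓝 z, Function.Surjective (dM (Cm n) (Cm p) f w) := by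
  set e : Chart n X := chartAt (Cm n) (j z) with he
  have h : At e (j z) := AMP.at_chartAt (j z)
  have hA : ContinuousAt (Am n p j f e z) z := (holV_Am hs h).continuousAt
  have hz : Function.Surjective (Am n p j f e z z) :=
    (surj_Am hs h (mem_chart_source _ _)).2 hsurj
  obtain ⟨T, hT⟩ := LinearMap.exists_rightInverse_of_surjective
    ((Am n p j f e z z : Cm n →L[ℂ] Cm p) : Cm n →ₗ[ℂ] Cm p) (LinearMap.range_eq_top.2 hz)
  set T' : Cm p →L[ℂ] Cm n := LinearMap.toContinuousLinearMap T with hT'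
  have h1 : (Am n p j f e z z).comp T' = 1 := by
    refine ContinuousLinearMap.ext fun y => ?_
    exact LinearMap.congr_fun hT y
  have h2 : ContinuousAt (fun w => (Am n p j f e z w).comp T') z :=
    hA.clm_comp continuousAt_const
  have h3 : ∀ᶠ w in 𝓝 z, IsUnit ((Am n p j f e z w).comp T') := by
    refine h2.eventually (Units.isOpen.mem_nhds ?_)
    show IsUnit ((Am n p j f e z z).comp T')
    rw [h1]
    exact isUnit_one
  have h4 : ∀ᶠ w in 𝓝 z, At e (j w) := by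
    filter_upwards [(hs.hj z).continuousAt.eventually (e.open_source.mem_nhds h.2)] with w hw
    exact ⟨h.1, hw⟩
  have h5 : ∀ᶠ w in 𝓝 z, f w ∈ (chartAt (Cm p) (f z)).source :=
    (hs.hf z).continuousAt.eventually
      ((chartAt (Cm p) (f z)).open_source.mem_nhds (mem_chart_source _ _))
  filter_upwards [h3, h4, h5] with w k1 k2 k3
  refine (surj_Am hs k2 k3).1 fun y => ?_
  refine ⟨T' (Ring.inverse ((Am n p j f e z w).comp T') y), ?_⟩
  have := congrArg (fun T : Cm p →L[ℂ] Cm p => T y) (Ring.mul_inverse_cancel _ k1)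
  exact this

end

variable {n p M : ℕ} {X Z Y : Type}
  [TopologicalSpace X] [T2Space X] [CompactSpace X] [ConnectedSpace X]
  [ChartedSpace (Cm n) X] [IsManifold 𝓘(ℂ, Cm n) ω X]
  [TopologicalSpace Z] [ChartedSpace (Cm n) Z] [IsManifold 𝓘(ℂ, Cm n) ω Z]
  [TopologicalSpace Y] [T2Space Y] [ConnectedSpace Y]
  [ChartedSpace (Cm p) Y] [IsManifold 𝓘(ℂ, Cm p) ω Y]

theorem setup_of {j : Z → X} (hj : J.IsBigOpen (Cm n) j) {f : Z → Y}
    (hf : ContMDiff 𝓘(ℂ, Cm n) 𝓘(ℂ, Cm p) ω f) {𝒢 : Set (Set Y)}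
    (h𝒢 : J.IsDivisorial (Cm n) (Cm p) f 𝒢) {Δ : Set X → ℝ} (hsnc : J.IsSNC (Cm n) Δ)
    {Dv : Fin M → Set X} (hDv : ∀ D, Δ D ≠ 0 ↔ ∃ i, Dv i = D) :
    Setup n p j f (⋃₀ 𝒢) Dv := by
  classical
  have hs := JB.snc hsnc
  obtain ⟨hj0, hj₁, hj₂, hthinj⟩ := id hj
  obtain ⟨h𝒢fin, h𝒢pr, 𝒟, h𝒟fin, hpre, hdom⟩ := id h𝒢
  have hjh : ∀ z, HolM (Cm n) (Cm n) j z := fun z => hj0 z
  have hfh : ∀ z, HolM (Cm n) (Cm p) f z := fun z => hf z
  set S : Set Y := ⋃₀ 𝒢 with hS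
  have hSc : IsClosed S := by
    rw [hS, sUnion_eq_biUnion]
    exact h𝒢fin.isClosed_biUnion fun G hG => (h𝒢pr G hG).1
  have h𝒟pr : ∀ D ∈ 𝒟, IsPrimeDivisor (Cm n) D := fun D hD => by
    obtain ⟨G, hG, h1, -⟩ := hdom D hD
    exact h1
  have hthin := thin_of_components (f := f) hfh h𝒟fin h𝒢pr h𝒟pr hpre (fun D hD => by
    obtain ⟨G, hG, h1, h2, h3⟩ := hdom D hD
    exact ⟨G, hG, h2, h3⟩)
  have hDpr : ∀ i, IsPrimeDivisor (Cm n) (Dv i) := fun i => hs.prime _ ((hDv _).2 ⟨i, rfl⟩)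
  have hjd : Dense (range j) := by
    intro x
    obtain ⟨h, -, hne, hev⟩ := hthinj x
    rw [mem_closure_iff_frequently]
    intro hcon
    apply hne
    filter_upwards [hcon, hev] with z hz hz'
    exact hz'.1 hz
  have hΩd : Dense {x | ∃ z, j z = x ∧ f z ∉ S} := by
    have h1 : Dense {z | f z ∉ S} := by
      intro x
      obtain ⟨h, -, hne, hev⟩ := hthin x
      rw [mem_closure_iff_frequently]
      intro hcon
      apply hne
      filter_upwards [hcon, hev] with z hz hz'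
      exact hz'.1 (not_not.1 hz)
    have h2 : j '' {z | f z ∉ S} = {x | ∃ z, j z = x ∧ f z ∉ S} := by
      ext x
      constructor
      · rintro ⟨z, hz, rfl⟩
        exact ⟨z, rfl, hz⟩
      · rintro ⟨z, rfl, hz⟩
        exact ⟨z, hz, rfl⟩
    rw [← h2]
    exact DenseRange.dense_image (f := j) hjd hj₁.continuous h1
  have h0 : {x : X | ∀ i, x ∉ Dv i} = ⋂ i, (Dv i)ᶜ := by
    ext x
    simp
  have hdD : Dense {x : X | ∀ i, x ∉ Dv i} := by
    rw [h0]
    exact dense_iInter_of_isOpen (fun i => (hDpr i).1.isOpen_compl)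
      fun i => dense_compl_prime (hDpr i)
  have hoD : IsOpen {x : X | ∀ i, x ∉ Dv i} := by
    rw [h0]
    exact isOpen_iInter_of_finite fun i => (hDpr i).1.isOpen_compl
  exact
    { hj := hjh
      emb := hj₁
      inj := hj₂
      hf := hfh
      closedS := hSc
      dense := hΩd.inter_of_isOpen_right hdD hoD
      closedD := fun i => (hDpr i).1
      denseD := hdD }

/-- the bridge, at one point -/
theorem bridge_core {χ : FormM n X} (hχ : IsKahler χ)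
    {j : Z → X} (hj : J.IsBigOpen (Cm n) j) {f : Z → Y}
    (hf : ContMDiff 𝓘(ℂ, Cm n) 𝓘(ℂ, Cm p) ω f) {𝒢 : Set (Set Y)}
    (h𝒢 : J.IsDivisorial (Cm n) (Cm p) f 𝒢) {Δ : Set X → ℝ} (hsnc : J.IsSNC (Cm n) Δ)
    {Δ' : Set Z → ℝ} (hsnc' : J.IsSNC (Cm n) Δ') (hres : J.IsRestriction j Δ Δ')
    {Dv : Fin M → Set X} (hinj : Function.Injective Dv) (hDv : ∀ D, Δ D ≠ 0 ↔ ∃ i, Dv i = D)
    {r : Fin M → X → ℝ} {R : Fin M → FormM n X} (hR : IsBd Dv r R) {m₀ : ℕ} (hm₀ : 0 < m₀)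
    {ι : Type} {P : ι → X → ℂ} {R' : Set X}
    (hcore : ∀ (p' μ : ℕ) (K : Fin M → ℕ) (N₀ N₁ : FormM n X → X → ℝ) (u : X → ℝ), m₀ ∣ μ →
      (∀ i, (K i : ℝ) ≤ μ * Δ (Dv i)) → IsDecPair Dv r χ p' μ K N₀ N₁ →
      (∀ g x, IsKahler g → 0 < N₀ g x → 0 < N₁ g x →
        u x = Real.log (N₁ g x) - Real.log (N₀ g x)) →
      ∀ x ∈ R', 0 < N₀ χ x → 0 < N₁ χ x → ∀ e, At e x → ∀ a₀, P a₀ x ≠ 0 → ∀ v : Cm n,
        (∀ a, fderiv ℂ (fun z => P a (e.symm z) / P a₀ (e.symm z)) (e x) v = 0) →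
        ∑ i, xi u e (e x) i * v i = 0)
    {m : ℕ} {k : Set Y → ℕ} (hm : 0 < m)
    (hk : ∀ G, (k G : ℝ) ≤ m * J.orbBase' (Cm n) (Cm p) f Δ' G) (hkG : ∀ G, k G ≠ 0 → G ∈ 𝒢)
    {σ₀ σ₁ : Y → ℂ}
    (hσ₀ : J.IsSection (Cm p) (fun (D : Set Y) z g => J.IsLocalEq (Cm p) D g z) m k σ₀)
    (hσ₁ : J.IsSection (Cm p) (fun (D : Set Y) z g => J.IsLocalEq (Cm p) D g z) m k σ₁)
    {z : Z} (hzR : j z ∈ R') (hzΔ : ∀ D, Δ D ≠ 0 → j z ∉ D) (hzS : f z ∉ ⋃₀ 𝒢)
    (hsurj : Function.Surjective (dM (Cm n) (Cm p) f z)) (h0 : σ₀ (f z) ≠ 0) {a₀ : ι}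
    (ha₀ : P a₀ (j z) ≠ 0) {v : Cm n}
    (hv : ∀ a, dif (Cm n) (fun w => P a w / P a₀ w) (j z) (dM (Cm n) (Cm n) j z v) = 0) :
    dif (Cm n) (fun z => σ₁ (f z) / σ₀ (f z)) z v = 0 := by
  have hs : Setup n p j f (⋃₀ 𝒢) Dv := setup_of hj hf h𝒢 hsnc hDv
  obtain ⟨c, hc⟩ : ∃ c : ℂ, σ₁ (f z) + c * σ₀ (f z) ≠ 0 := by
    by_cases h1 : σ₁ (f z) = 0
    · exact ⟨1, by rw [h1, zero_add, one_mul]; exact h0⟩
    · exact ⟨0, by rw [zero_mul, add_zero]; exact h1⟩
  obtain ⟨q, rfl⟩ : ∃ q, m₀ = q + 1 := ⟨m₀ - 1, by omega⟩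
  set s₀ : Y → ℂ := fun y => σ₀ y ^ q * (σ₀ y + 0 * σ₀ y) with hs₀
  set s₁ : Y → ℂ := fun y => σ₀ y ^ q * (σ₁ y + c * σ₀ y) with hs₁
  have hsec₀ : J.IsSection (Cm p) (fun (D : Set Y) z g => J.IsLocalEq (Cm p) D g z) ((q + 1) * m)
      (fun G => (q + 1) * k G) s₀ := sec_comb hσ₀ hσ₀ 0 q
  have hsec₁ : J.IsSection (Cm p) (fun (D : Set Y) z g => J.IsLocalEq (Cm p) D g z) ((q + 1) * m)
      (fun G => (q + 1) * k G) s₁ := sec_comb hσ₀ hσ₁ c q
  obtain ⟨μ, l, K, N₀, N₁, hl, hμ, hK, hdec, hq, hval⟩ := tenPartK' n p M X Z Y χ hχ j hj f hf 𝒢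
    h𝒢 Δ hsnc Δ' hsnc' hres Dv hinj hDv r R hR ((q + 1) * m) (by positivity)
    (fun G => (q + 1) * k G) (fun G => by
      push_cast
      rw [mul_assoc]
      exact mul_le_mul_of_nonneg_left (hk G) (by positivity))
    (fun G hG => hkG G (right_ne_zero_of_mul hG)) s₀ s₁ hsec₀ hsec₁
  set u : X → ℝ := fun x => Real.log (N₁ χ x) - Real.log (N₀ χ x) with hu
  have hzD : ∀ i, j z ∉ Dv i := fun i => hzΔ _ ((hDv _).2 ⟨i, rfl⟩)
  -- the quotient of the sections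
  have hky : ∀ D, k D ≠ 0 → ∃ g, IsLocalEq (Cm p) D g (f z) ∧ g (f z) ≠ 0 := by
    intro D hD
    have hDG : D ∈ 𝒢 := hkG D hD
    obtain ⟨g, hg⟩ := (show IsPrimeDivisor (Cm p) D from h𝒢.2.1 D hDG).2.1 (f z)
    exact ⟨g, hg, fun h1 => hzS (mem_sUnion_of_mem (hg.mem_iff.2 h1) hDG)⟩
  obtain ⟨hQ, hQ0⟩ := holV_quotient hσ₀ hσ₁ hky h0
  set Q : Z → ℂ := fun w => σ₁ (f w) / σ₀ (f w) with hQd
  have hQh : HolV (Cm n) Q z := HolV.comp (h := fun y => σ₁ y / σ₀ y) hQ (hs.hf z)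
  set h : Z → ℂ := fun w => Q w + c with hh
  have hhh : HolV (Cm n) h z := hQh.add (HolV.const c z)
  have hhz : h z ≠ 0 := by
    have h1 : h z * σ₀ (f z) = σ₁ (f z) + c * σ₀ (f z) := by
      simp only [hh, hQd]
      field_simp
    intro h2
    rw [h2, zero_mul] at h1
    exact hc h1.symm
  have hdh : dV (Cm n) h z = dV (Cm n) Q z := by
    have h1 : ContDiffAt ℂ ω (fun t : ℂ => t + c) (Q z) := contDiffAt_id.add contDiffAt_const
    have h2 := dV_comp_contDiff (G := fun t : ℂ => t + c) (v := Q) h1 hQh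
    have h3 : fderiv ℂ (fun t : ℂ => t + c) (Q z) = ContinuousLinearMap.id ℂ ℂ := by
      rw [fderiv_add_const]
      exact fderiv_fun_id
    rw [h3, ContinuousLinearMap.id_comp] at h2
    exact h2
  -- the function `u ∘ j`
  have hfc : ContinuousAt f z := (hs.hf z).continuousAt
  have hjc : ContinuousAt j z := (hs.hj z).continuousAt
  have hev : ∀ᶠ w in 𝓝 z, u (j w) = l * Real.log (‖h w‖ ^ 2) := by
    filter_upwards [hfc.eventually (hs.closedS.isOpen_compl.mem_nhds hzS),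
      eventually_all.2 fun i => hjc.eventually ((hs.closedD i).isOpen_compl.mem_nhds (hzD i)),
      surj_open hs hsurj, hfc.eventually hQ0, hhh.continuousAt.eventually_ne hhz] with
      w k1 k2 k3 k4 k5
    have e1 : s₀ (f w) = σ₀ (f w) ^ (q + 1) := by
      simp only [hs₀]
      ring
    have e2 : s₁ (f w) = σ₀ (f w) ^ (q + 1) * h w := by
      simp only [hs₁, hh, hQd]
      field_simp
      ring
    have k6 : s₀ (f w) ≠ 0 := by
      rw [e1]
      exact pow_ne_zero _ k4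
    have k7 : s₁ (f w) ≠ 0 := by
      rw [e2]
      exact mul_ne_zero (pow_ne_zero _ k4) k5
    obtain ⟨-, -, k8⟩ := hval w k1 k2 k3 k6 k7
    show Real.log (N₁ χ (j w)) - Real.log (N₀ χ (j w)) = _
    rw [k8, e1, e2, norm_mul, mul_pow, Real.log_mul
      (pow_ne_zero _ (norm_ne_zero_iff.2 (pow_ne_zero _ k4)))
      (pow_ne_zero _ (norm_ne_zero_iff.2 k5))]
    ring
  have hpos : 0 < N₀ χ (j z) ∧ 0 < N₁ χ (j z) := by
    have k4 : σ₀ (f z) ≠ 0 := h0
    have e1 : s₀ (f z) = σ₀ (f z) ^ (q + 1) := by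
      simp only [hs₀]
      ring
    have k6 : s₀ (f z) ≠ 0 := by
      rw [e1]
      exact pow_ne_zero _ k4
    have k7 : s₁ (f z) ≠ 0 := mul_ne_zero (pow_ne_zero _ k4) hc
    obtain ⟨k8, k9, -⟩ := hval z hzS hzD hsurj k6 k7
    exact ⟨k8, k9⟩
  set e : Chart n X := chartAt (Cm n) (j z) with he
  have hAt : At e (j z) := AMP.at_chartAt (j z)
  set H : Cm n → ℂ := fun y => h (jinv j z (e.symm y)) with hH
  have hHa : AnalyticAt ℂ H (e (j z)) := analytic_jinv hs hAt hhh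
  have hjz : jinv j z (j z) = z := jinv_j hs.emb.injective z z
  have hHz : H (e (j z)) = h z := by
    simp only [hH]
    rw [e.left_inv hAt.2, hjz]
  have hue : ∀ᶠ y in 𝓝 (e (j z)), u (e.symm y) = l * Real.log (‖H y‖ ^ 2) := by
    filter_upwards [ev_jinv hs hAt hev] with y hy
    obtain ⟨w, k1, k2, k3, k4, k5⟩ := hy
    simp only [hH]
    rw [k4, k2]
    exact k1
  set v' : Cm n := dV (Cm n) (fun w => e (j w)) z v with hv'
  have hv'' : v' = dM (Cm n) (Cm n) j z v := by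
    rw [hv', dV_comp (h := (e : X → Cm n)) (holV_at hAt) (hs.hj z), dV_chartAt]
    rfl
  have h1 := hcore p μ K N₀ N₁ u (by rw [hμ, mul_assoc]; exact dvd_mul_right _ _) hK hdec
    (fun g x hg k1 k2 => (hq g x hg k1 k2).symm) (j z) hzR hpos.1 hpos.2 e hAt a₀ ha₀ v'
    (fun a => by
      have h2 := hv a
      rw [dif_eq_fderiv] at h2
      rw [hv'']
      exact h2)
  rw [xi_logH_sum hHa (by rw [hHz]; exact hhz) hue] at h1
  have h2 : fderiv ℂ H (e (j z)) v' = 0 := by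
    rcases mul_eq_zero.1 h1 with h3 | h3
    · exfalso
      rcases mul_eq_zero.1 h3 with h4 | h4
      · have : (l : ℂ) ≠ 0 := by exact_mod_cast hl.ne'
        exact this (by simpa using h4)
      · exact inv_ne_zero (by rw [hHz]; exact hhz) h4
    · exact h3
  have h3 : dV (Cm n) h z = (fderiv ℂ H (e (j z))).comp (dV (Cm n) (fun w => e (j w)) z) := by
    rw [← dV_comp_contDiff (G := H) (v := fun w => e (j w)) hHa.contDiffAt (holV_ej hs.hj hAt)]
    refine dV_congr ?_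
    filter_upwards [hjc.eventually (e.open_source.mem_nhds hAt.2)] with w hw
    simp only [hH]
    rw [e.left_inv hw, jinv_j hs.emb.injective]
  show dV (Cm n) Q z v = 0
  rw [← hdh, h3]
  exact h2

end Vale.Agent.P281.H498
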